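import Vale.Agent.P017.R2.H985.Defs2

/-!
# P017, module M7c: a corank `s ≤ K` with positive weight
-/

open Finset

namespace Vale.Agent.P017.R2.H224

open Vale.Agent.P017.R2.H985

theorem cardPat (m : ℕ) : (Fintype.card (Pat m) : ℝ) = 2 ^ m.primeFactors.card := by
  have h : Fintype.card (Pat m) = 2 ^ m.primeFactors.card := by
    simp [Pat, PF, ZMod.card]
  exact_mod_cast h

/-- splitting of the patterns according to the corank -/
theorem split (m K : ℕ) :
    (Fintype.card (Pat m) : ℝ) ≤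
      (∑ s ∈ range (K + 1), ((univ.filter fun w : Pat m => cork m w = s).card : ℝ)) +
        (∑ w : Pat m, (2 : ℝ) ^ cork m w) / 2 ^ (K + 1) := by
  have h2 : (0 : ℝ) < 2 ^ (K + 1) := by positivity
  have e1 : (∑ s ∈ range (K + 1), ((univ.filter fun w : Pat m => cork m w = s).card : ℝ)) =
      ∑ w : Pat m, if cork m w < K + 1 then (1 : ℝ) else 0 := by
    have : ∀ s, ((univ.filter fun w : Pat m => cork m w = s).card : ℝ) =
        ∑ w : Pat m, if cork m w = s then (1 : ℝ) else 0 := by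
      intro s
      rw [Finset.sum_boole]
    simp_rw [this]
    rw [Finset.sum_comm]
    refine Finset.sum_congr rfl fun w _ => ?_
    rw [Finset.sum_ite_eq (range (K + 1)) (cork m w) (fun _ => (1 : ℝ))]
    simp only [Finset.mem_range]
  rw [e1, Finset.sum_div, ← Finset.sum_add_distrib, ← Finset.card_univ, Finset.card_eq_sum_ones,
    Nat.cast_sum]
  refine Finset.sum_le_sum fun w _ => ?_
  rw [Nat.cast_one]
  by_cases hw : cork m w < K + 1
  · rw [if_pos hw]
    have : (0 : ℝ) ≤ (2 : ℝ) ^ cork m w / 2 ^ (K + 1) := by positivity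
    linarith
  · rw [if_neg hw, zero_add, le_div_iff₀ h2, one_mul]
    exact pow_le_pow_right₀ (by norm_num) (not_lt.mp hw)

theorem odd_of_coprime {m : ℕ} (h : m.Coprime 30) : Odd m := by
  rw [← Nat.not_even_iff_odd]
  intro he
  have h2 : 2 ∣ m.gcd 30 := Nat.dvd_gcd (even_iff_two_dvd.mp he) (by norm_num)
  rw [h] at h2
  omega

/-- (M7c) -/
theorem stmtRank (h1 : StmtFirst) (h2 : StmtSqf) (h3 : StmtId) : StmtRank := by
  obtain ⟨C, hC, hF⟩ := h1
  obtain ⟨c, hc, hS⟩ := h2
  obtain ⟨K, hK⟩ : ∃ K : ℕ, 2 * C / c < 2 ^ K := pow_unbounded_of_one_lt _ (by norm_num)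
  have hK' : 2 * C / c ≤ 2 ^ (K + 1) :=
    hK.le.trans (pow_le_pow_right₀ (by norm_num) (Nat.le_succ K))
  have h2K : (0 : ℝ) < 2 ^ (K + 1) := by positivity
  have hCK : C / 2 ^ (K + 1) ≤ c / 2 := by
    rw [div_le_iff₀ hc] at hK'
    rw [div_le_iff₀ h2K]
    nlinarith
  refine ⟨K, c / (2 * (K + 1)), by positivity, fun Y hY => ?_⟩
  by_contra hcon
  push Not at hcon
  have hlog : 0 < Real.log Y := Real.log_pos (by exact_mod_cast (by omega : 1 < Y))
  set A := (Icc 1 Y).filter (fun m => Squarefree m ∧ m.Coprime 30) with hA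
  have hm0 : ∀ m ∈ A, (0 : ℝ) < m := by
    intro m hm
    have : 1 ≤ m := (Finset.mem_Icc.mp (Finset.mem_filter.mp hm).1).1
    exact_mod_cast this
  -- pointwise
  have key : ∀ m ∈ A, 1 / (m : ℝ) ≤
      (∑ s ∈ range (K + 1), ((univ.filter fun w : Pat m => cork m w = s).card : ℝ) /
        (Fintype.card (Pat m) * m)) +
      ((∑ b ∈ m.divisors, ∑ c ∈ (m / b).divisors, (jacobiSym b c : ℝ)) /
        (2 ^ m.primeFactors.card * m)) / 2 ^ (K + 1) := by
    intro m hm
    have hmem := (Finset.mem_filter.mp hm).2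
    have hid := h3 m hmem.1 (odd_of_coprime hmem.2)
    have hid' : (∑ w : Pat m, (2 : ℝ) ^ cork m w) =
        ∑ b ∈ m.divisors, ∑ c ∈ (m / b).divisors, (jacobiSym b c : ℝ) := by
      exact_mod_cast congrArg (Int.cast : ℤ → ℝ) hid
    have hsp := split m K
    have hcp : (0 : ℝ) < Fintype.card (Pat m) := by
      rw [cardPat]; positivity
    have hm := hm0 m hm
    rw [← hid', ← cardPat, ← Finset.sum_div]
    have e : ∀ a b : ℝ, a / (Fintype.card (Pat m) * m) + b / (Fintype.card (Pat m) * m) / 2 ^ (K + 1)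
        = (a + b / 2 ^ (K + 1)) / (Fintype.card (Pat m) * m) := by
      intro a b
      field_simp
    rw [e, le_div_iff₀ (by positivity)]
    calc 1 / (m : ℝ) * (Fintype.card (Pat m) * m) = Fintype.card (Pat m) := by
          field_simp
      _ ≤ _ := hsp
  have hsum := Finset.sum_le_sum key
  rw [Finset.sum_add_distrib, Finset.sum_comm, ← Finset.sum_div] at hsum
  have hS' := hS Y hY
  have hF' := hF Y hY
  rw [← hA] at hS' hF'
  have h5 : ∑ s ∈ range (K + 1), ∑ m ∈ A,
      ((univ.filter fun w : Pat m => cork m w = s).card : ℝ) / (Fintype.card (Pat m) * m) <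
      c / 2 * Real.log Y := by
    calc _ < ∑ s ∈ range (K + 1), c / (2 * (K + 1)) * Real.log Y := by
          refine Finset.sum_lt_sum_of_nonempty ⟨0, by simp⟩ fun s hs => ?_
          exact hcon s (Nat.lt_succ_iff.mp (Finset.mem_range.mp hs))
      _ = c / 2 * Real.log Y := by
          rw [Finset.sum_const, Finset.card_range, nsmul_eq_mul]
          push_cast
          field_simp
  have h6 : (∑ m ∈ A, (∑ b ∈ m.divisors, ∑ c ∈ (m / b).divisors, (jacobiSym b c : ℝ)) /
        (2 ^ m.primeFactors.card * m)) / 2 ^ (K + 1) ≤ c / 2 * Real.log Y := by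
    calc _ ≤ (C * Real.log Y) / 2 ^ (K + 1) := by
          exact div_le_div_of_nonneg_right hF' h2K.le
      _ = C / 2 ^ (K + 1) * Real.log Y := by ring
      _ ≤ _ := mul_le_mul_of_nonneg_right hCK hlog.le
  linarith

end Vale.Agent.P017.R2.H224
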